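import Mathlib

/-!
# Mod 2 chains of tuples of points (tuples = lists, chains = lists of lists)

`ev φ c` evaluates the cochain `φ` on the chain `c`, `bd` is the augmented boundary of a tuple,
`pr f g` is the prism operator between the maps `f` and `g`.
-/

namespace Vale.Agent.P052.R2.H243

open List

variable {E F : Type*}

/-- value of a mod 2 cochain on a chain -/
def ev (φ : List E → ZMod 2) (c : List (List E)) : ZMod 2 := (c.map φ).sum

/-- boundary of a tuple (augmented: the boundary of `[x]` is the empty tuple) -/
def bd : List E → List (List E)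
  | [] => []
  | x :: l => l :: (bd l).map (fun m => x :: m)

/-- coboundary of a cochain -/
def dl (φ : List E → ZMod 2) (l : List E) : ZMod 2 := ev φ (bd l)

/-- prism operator from `f` to `g` -/
def pr (f g : E → F) : List E → List (List F)
  | [] => []
  | x :: l => (f x :: g x :: l.map g) :: (pr f g l).map (fun m => f x :: m)

@[simp] theorem ev_nil (φ : List E → ZMod 2) : ev φ [] = 0 := rfl

@[simp] theorem ev_cons (φ : List E → ZMod 2) (l : List E) (c : List (List E)) :
    ev φ (l :: c) = φ l + ev φ c := by simp [ev]

@[simp] theorem ev_append (φ : List E → ZMod 2) (c d : List (List E)) :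
    ev φ (c ++ d) = ev φ c + ev φ d := by simp [ev]

theorem ev_map (φ : List F → ZMod 2) (g : List E → List F) (c : List (List E)) :
    ev φ (c.map g) = ev (fun l => φ (g l)) c := by
  simp [ev, Function.comp_def]

theorem ev_flatMap {α : Type*} (φ : List E → ZMod 2) (f : α → List (List E)) (c : List α) :
    ev φ (c.flatMap f) = (c.map (fun l => ev φ (f l))).sum := by
  induction c with
  | nil => simp
  | cons a c ih => simp [ih]

theorem ev_flatMap' (φ : List F → ZMod 2) (f : List E → List (List F)) (c : List (List E)) :
    ev φ (c.flatMap f) = ev (fun l => ev φ (f l)) c := by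
  rw [ev_flatMap]; rfl

theorem ev_add (φ ψ : List E → ZMod 2) (c : List (List E)) :
    ev (fun l => φ l + ψ l) c = ev φ c + ev ψ c := by
  induction c with
  | nil => simp
  | cons a c ih => simp only [ev_cons, ih]; ring

theorem ev_zero (c : List (List E)) : ev (fun _ => 0) c = 0 := by
  induction c with
  | nil => simp
  | cons a c ih => simp [ih]

theorem ev_congr {φ ψ : List E → ZMod 2} {c : List (List E)} (h : ∀ l ∈ c, φ l = ψ l) :
    ev φ c = ev ψ c := by
  unfold ev
  rw [List.map_congr_left h]

theorem add_self2 (a : ZMod 2) : a + a = 0 := CharTwo.add_self_eq_zero a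

@[simp] theorem dl_nil (φ : List E → ZMod 2) : dl φ [] = 0 := rfl

theorem dl_cons (φ : List E → ZMod 2) (x : E) (l : List E) :
    dl φ (x :: l) = φ l + dl (fun m => φ (x :: m)) l := by
  simp [dl, bd, ev_map]

/-- the coboundary as a sum over positions -/
theorem dl_eq_sum (φ : List E → ZMod 2) (l : List E) :
    dl φ l = ∑ i ∈ Finset.range l.length, φ (l.eraseIdx i) := by
  induction l generalizing φ with
  | nil => simp
  | cons x l ih =>
    rw [dl_cons, ih, List.length_cons, Finset.sum_range_succ']
    simp [add_comm]

theorem mem_bd {l m : List E} (h : m ∈ bd l) : m.Sublist l := by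
  induction l generalizing m with
  | nil => simp [bd] at h
  | cons x l ih =>
    simp only [bd, List.mem_cons, List.mem_map] at h
    rcases h with rfl | ⟨m', hm', rfl⟩
    · exact List.sublist_cons_self x m
    · exact (ih hm').cons_cons x

theorem length_of_mem_bd {l m : List E} (h : m ∈ bd l) : m.length + 1 = l.length := by
  induction l generalizing m with
  | nil => simp [bd] at h
  | cons x l ih =>
    simp only [bd, List.mem_cons, List.mem_map] at h
    rcases h with rfl | ⟨m', hm', rfl⟩
    · simp
    · simp [ih hm']

theorem bd_map (g : E → F) (l : List E) : bd (l.map g) = (bd l).map (List.map g) := by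
  induction l with
  | nil => simp [bd]
  | cons x l ih => simp [bd, ih, Function.comp_def]

theorem dl_map (φ : List F → ZMod 2) (g : E → F) (l : List E) :
    dl φ (l.map g) = dl (fun m => φ (m.map g)) l := by
  rw [dl, bd_map, ev_map]; rfl

theorem dl_congr {φ ψ : List E → ZMod 2} {l : List E}
    (h : ∀ m, m.Sublist l → φ m = ψ m) : dl φ l = dl ψ l :=
  ev_congr (fun m hm => h m (mem_bd hm))

/-- the boundary of the boundary is zero -/
theorem dl_dl (φ : List E → ZMod 2) (l : List E) : dl (dl φ) l = 0 := by
  induction l generalizing φ with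
  | nil => simp
  | cons x l ih =>
    rw [dl_cons]
    have h : dl (fun m => dl φ (x :: m)) l
        = dl φ l + dl (dl (fun m => φ (x :: m))) l := by
      unfold dl
      rw [← ev_add]
      apply ev_congr
      intro m _
      simp only [bd, ev_cons, ev_map]
    rw [h, ih, add_zero, add_self2]

/-- the prism identity -/
theorem prism (f g : E → F) (φ : List F → ZMod 2) (l : List E) :
    ev (dl φ) (pr f g l) + dl (fun m => ev φ (pr f g m)) l
      = φ (l.map g) + φ (l.map f) := by
  induction l generalizing φ with
  | nil => simp [pr, add_self2]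
  | cons x l ih =>
    simp only [pr, ev_cons, dl_cons, ev_map, List.map_cons]
    have h1 : ev (fun m => φ m + dl (fun m' => φ (f x :: m')) m) (pr f g l)
        = ev φ (pr f g l) + ev (dl (fun m' => φ (f x :: m'))) (pr f g l) := ev_add _ _ _
    have h2 : dl (fun m => φ (f x :: g x :: m.map g) + ev (fun m' => φ (f x :: m')) (pr f g m)) l
        = dl (fun m => φ (f x :: g x :: m.map g)) l
          + dl (fun m => ev (fun m' => φ (f x :: m')) (pr f g m)) l := ev_add _ _ _
    have h3 := ih (fun m' => φ (f x :: m'))
    have h4 : dl (fun m => φ (f x :: g x :: m)) (l.map g)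
        = dl (fun m => φ (f x :: g x :: m.map g)) l := dl_map _ _ _
    rw [h1, h2, h4]
    have key : ∀ a b A P Q R c d : ZMod 2, Q + R = c + d →
        (a + (c + A) + (P + Q)) + (P + (A + R)) = a + d := by
      intro a b A P Q R c d h
      have : (a + (c + A) + (P + Q)) + (P + (A + R)) = a + c + (Q + R) + (A + A) + (P + P) := by ring
      rw [this, h, add_self2, add_self2]
      have : a + c + (c + d) + 0 + 0 = a + d + (c + c) := by ring
      rw [this, add_self2, add_zero]
    exact key _ 0 _ _ _ _ _ _ h3

theorem length_of_mem_pr (f g : E → F) {l : List E} {m : List F} (h : m ∈ pr f g l) :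
    m.length = l.length + 1 := by
  induction l generalizing m with
  | nil => simp [pr] at h
  | cons x l ih =>
    simp only [pr, List.mem_cons, List.mem_map] at h
    rcases h with rfl | ⟨m', hm', rfl⟩
    · simp
    · simp [ih hm']

theorem mem_of_mem_pr (f g : E → F) {l : List E} {m : List F} (h : m ∈ pr f g l) {y : F}
    (hy : y ∈ m) : ∃ x ∈ l, y = f x ∨ y = g x := by
  induction l generalizing m with
  | nil => simp [pr] at h
  | cons x l ih =>
    simp only [pr, List.mem_cons, List.mem_map] at h
    rcases h with rfl | ⟨m', hm', rfl⟩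
    · simp only [List.mem_cons, List.mem_map] at hy
      rcases hy with rfl | rfl | ⟨z, hz, rfl⟩
      · exact ⟨x, by simp, Or.inl rfl⟩
      · exact ⟨x, by simp, Or.inr rfl⟩
      · exact ⟨z, by simp [hz], Or.inr rfl⟩
    · simp only [List.mem_cons] at hy
      rcases hy with rfl | hy
      · exact ⟨x, by simp, Or.inl rfl⟩
      · obtain ⟨z, hz, h2⟩ := ih hm' hy
        exact ⟨z, by simp [hz], h2⟩

/-- a chain is a cycle -/
def IsCycle (c : List (List E)) : Prop := ∀ φ : List E → ZMod 2, ev (dl φ) c = 0

/-- sum of prisms along a path of maps -/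
def sweep (g : ℕ → E → F) (M : ℕ) (c : List (List E)) : List (List F) :=
  (List.range M).flatMap (fun s => c.flatMap (pr (g s) (g (s + 1))))

theorem mem_sweep {g : ℕ → E → F} {M : ℕ} {c : List (List E)} {m : List F} :
    m ∈ sweep g M c ↔ ∃ s < M, ∃ l ∈ c, m ∈ pr (g s) (g (s + 1)) l := by
  simp [sweep, List.mem_flatMap]

theorem ev_sweep_succ (φ : List F → ZMod 2) (g : ℕ → E → F) (M : ℕ) (c : List (List E)) :
    ev φ (sweep g (M + 1) c)
      = ev φ (sweep g M c) + ev φ (c.flatMap (pr (g M) (g (M + 1)))) := by
  simp [sweep, List.range_succ, List.flatMap_append]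

theorem bd_sweep {g : ℕ → E → F} {M : ℕ} {c : List (List E)} (hc : IsCycle c)
    (φ : List F → ZMod 2) :
    ev (dl φ) (sweep g M c)
      = ev (fun l => φ (l.map (g M))) c + ev (fun l => φ (l.map (g 0))) c := by
  induction M with
  | zero => simp [sweep, add_self2]
  | succ M ih =>
    rw [ev_sweep_succ, ih, ev_flatMap']
    have h1 : ev (fun l => ev (dl φ) (pr (g M) (g (M + 1)) l)) c
        = ev (fun l => φ (l.map (g (M+1))) + φ (l.map (g M))) c := by
      have h2 : ev (fun l => ev (dl φ) (pr (g M) (g (M + 1)) l)) c
          + ev (dl (fun m => ev φ (pr (g M) (g (M + 1)) m))) c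
          = ev (fun l => φ (l.map (g (M+1))) + φ (l.map (g M))) c := by
        rw [← ev_add]
        apply ev_congr
        intro l _
        exact prism _ _ _ _
      rw [hc, add_zero] at h2
      exact h2
    rw [h1, ev_add]
    have : ∀ a b d : ZMod 2, a + b + (d + a) = d + b := by
      intro a b d
      have : a + b + (d + a) = d + b + (a + a) := by ring
      rw [this, add_self2, add_zero]
    exact this _ _ _

theorem ev_even_const (φ : List F → ZMod 2) (d : List (List E)) (a : ZMod 2) :
    ev (fun _ => a) (d ++ d) = 0 := by
  rw [ev_append, add_self2]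

end Vale.Agent.P052.R2.H243
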