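import Vale.Agent.P052.R2.H353.Defs

/-!
# P052, discrete route, M4(2): closeness of the top vectors (quantitative, no compactness)
-/

namespace P052D

open scoped RealInnerProductSpace
open Module

theorem Col.le_abs_inner {n N : ℕ} (C : Col n N) {y z : E n} {i : Fin N} (hy : y ∈ C.F i)
    (hz : ‖z‖ = 1) (hc : C.c z = i) : C.ε ≤ |⟪y, z⟫| := by
  have hcl : IsClosed {x : E n | C.ε ≤ |⟪x, z⟫|} :=
    isClosed_le continuous_const (by fun_prop)
  have hsub : {x : E n | ‖x‖ = 1 ∧ C.c x = i} ⊆ {x : E n | C.ε ≤ |⟪x, z⟫|} := by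
    rintro x ⟨hx, hxc⟩
    exact (C.sep x z hx hz (by rw [hxc, hc])).le
  exact closure_minimal hsub hcl hy

theorem Col.norm_F {n N : ℕ} (C : Col n N) {y : E n} {i : Fin N} (hy : y ∈ C.F i) :
    ‖y‖ = 1 := by
  have hcl : IsClosed {x : E n | ‖x‖ = 1} := isClosed_eq continuous_norm continuous_const
  exact closure_minimal (fun x hx => hx.1) hcl hy

/-- first half of `Lab.close` -/
theorem Lab.close_aux {n N : ℕ} {C : Col n N} (L : Lab C)
    (three : ∀ (U : Submodule ℝ (E n)), 2 ≤ finrank ℝ U → ∀ a b : Fin N,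
      ∃ i ∈ C.cs U, i ≠ a ∧ i ≠ b) (η : ℝ) (hη : 0 < η)
    (l : List (S n)) (a b : Fin N) (hl : ∀ A ∈ l, ‖A‖ = 1)
    (hμ : ∀ A ∈ l, ∀ B ∈ l, ‖A - B‖ < C.ε * η / (η + 2))
    (hj : ∀ j, j ≠ a → j ≠ b → (false, j) ∈ l.map L.lb)
    (A : S n) (hA : A ∈ l) (B : S n) (hB : B ∈ l) (hsA : L.sg A = true) (hsB : L.sg B = true) :
    ‖L.v A - L.v B‖ < η ∨ ‖L.v A + L.v B‖ < η := by
  by_contra hcon
  push Not at hcon
  obtain ⟨h1, h2⟩ := hcon
  have ne0 : ∀ D ∈ l, D ≠ 0 := by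
    intro D hD h0
    have := hl D hD
    rw [h0] at this
    simp at this
  set v := L.v A with hv
  set v' := L.v B with hv'
  have nv : ‖v‖ = 1 := L.unit A (ne0 A hA)
  have nv' : ‖v'‖ = 1 := L.unit B (ne0 B hB)
  have eA : A.1 v = v := by
    have := L.eig A (ne0 A hA)
    rw [hsA, hl A hA] at this
    simpa using this
  have eB : B.1 v' = v' := by
    have := L.eig B (ne0 B hB)
    rw [hsB, hl B hB] at this
    simpa using this
  set t := ⟪v, v'⟫ with ht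
  have n1 : ‖v - v'‖ ^ 2 = 2 - 2 * t := by
    rw [norm_sub_sq_real, nv, nv']; ring
  have n2 : ‖v + v'‖ ^ 2 = 2 + 2 * t := by
    rw [norm_add_sq_real, nv, nv']; ring
  have g1 : η ^ 2 ≤ 2 - 2 * t := by
    rw [← n1]; exact pow_le_pow_left₀ hη.le h1 2
  have g2 : η ^ 2 ≤ 2 + 2 * t := by
    rw [← n2]; exact pow_le_pow_left₀ hη.le h2 2
  have g3 : η ^ 2 / 2 ≤ 1 - t ^ 2 := by
    rcases le_total 0 t with h0 | h0
    · nlinarith
    · nlinarith
  have hη2 : 0 < η ^ 2 := by positivity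
  -- the plane
  set U : Submodule ℝ (E n) := Submodule.span ℝ {v, v'} with hU
  have hli : LinearIndependent ℝ ![v, v'] := by
    rw [LinearIndependent.pair_iff]
    intro p q hpq
    have k1 : p + q * t = 0 := by
      have : ⟪v, p • v + q • v'⟫ = 0 := by rw [hpq, inner_zero_right]
      rw [inner_add_right, real_inner_smul_right, real_inner_smul_right,
        real_inner_self_eq_norm_sq, nv] at this
      linarith
    have k2 : p * t + q = 0 := by
      have : ⟪p • v + q • v', v'⟫ = 0 := by rw [hpq, inner_zero_left]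
      rw [inner_add_left, real_inner_smul_left, real_inner_smul_left,
        real_inner_self_eq_norm_sq, nv'] at this
      linarith
    have k3 : q * (1 - t ^ 2) = 0 := by nlinarith
    have k4 : (1 - t ^ 2) ≠ 0 := by nlinarith
    have hq : q = 0 := by
      rcases mul_eq_zero.1 k3 with h | h
      · exact h
      · exact absurd h k4
    rw [hq] at k1
    exact ⟨by linarith, hq⟩
  have hfin : 2 ≤ finrank ℝ U := by
    have h3 := finrank_span_eq_card hli
    have h4 : Set.range ![v, v'] = {v, v'} := by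
      ext x
      simp [eq_comm, or_comm]
    rw [h4] at h3
    rw [hU, h3]
    simp
  obtain ⟨i, hi, hia, hib⟩ := three U hfin a b
  obtain ⟨y, hyU, hyF⟩ := hi
  have ny : ‖y‖ = 1 := C.norm_F hyF
  -- the negative vertex of colour `i`
  have hD := hj i hia hib
  rw [List.mem_map] at hD
  obtain ⟨D, hDl, hDlab⟩ := hD
  have hsD : L.sg D = false := congrArg Prod.fst hDlab
  have hcD : C.c (L.v D) = i := congrArg Prod.snd hDlab
  set z := L.v D with hz
  have nz : ‖z‖ = 1 := L.unit D (ne0 D hDl)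
  have eD : D.1 z = -z := by
    have := L.eig D (ne0 D hDl)
    rw [hsD, hl D hDl] at this
    simpa using this
  have hyz := C.le_abs_inner hyF nz hcD
  rw [hU, Submodule.mem_span_pair] at hyU
  obtain ⟨p, q, hpq⟩ := hyU
  -- bound for q
  have hq : q ^ 2 * (1 - t ^ 2) ≤ 1 := by
    have : ‖y‖ ^ 2 = p ^ 2 + 2 * (p * q * t) + q ^ 2 := by
      rw [← hpq, norm_add_sq_real, norm_smul, norm_smul, nv, nv', real_inner_smul_left,
        real_inner_smul_right, Real.norm_eq_abs, Real.norm_eq_abs, mul_one, mul_one, sq_abs,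
        sq_abs]
      ring
    rw [ny] at this
    nlinarith [sq_nonneg (p + q * t)]
  have hq2 : |q| ≤ 2 / η := by
    have h5 : q ^ 2 * (η ^ 2 / 2) ≤ 1 :=
      le_trans (mul_le_mul_of_nonneg_left g3 (sq_nonneg q)) hq
    have h6 : (|q| * η) ^ 2 ≤ 2 ^ 2 := by
      rw [mul_pow, sq_abs]; nlinarith
    have h7 : |q| * η ≤ 2 := abs_le_of_sq_le_sq' h6 (by norm_num) |>.2
    rw [le_div_iff₀ hη]
    exact h7
  set μ := C.ε * η / (η + 2) with hμdef
  have opb : ∀ D1 ∈ l, ∀ D2 ∈ l, ∀ x : E n, ‖x‖ = 1 → ‖D1.1 x - D2.1 x‖ ≤ μ := by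
    intro D1 hD1 D2 hD2 x hx
    have h8 : D1.1 x - D2.1 x = (D1 - D2).1 x := by simp
    rw [h8]
    calc ‖(D1 - D2).1 x‖ ≤ ‖(D1 - D2).1‖ * ‖x‖ := ContinuousLinearMap.le_opNorm _ _
      _ = ‖D1 - D2‖ := by rw [hx, mul_one]; rfl
      _ ≤ μ := (hμ D1 hD1 D2 hD2).le
  have hsym := A.2 y z
  have e1 : A.1 y = y + q • (A.1 v' - B.1 v') := by
    rw [← hpq, map_add, map_smul, map_smul, eA, eB, smul_sub]
    abel
  have e2 : A.1 z = -z + (A.1 z - D.1 z) := by rw [eD]; abel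
  have hA1 := opb A hA B hB v' nv'
  have hA2 := opb A hA D hDl z nz
  have e3 : 2 * ⟪y, z⟫ = ⟪y, A.1 z - D.1 z⟫ - q * ⟪A.1 v' - B.1 v', z⟫ := by
    have h9 : ⟪A.1 y, z⟫ = ⟪y, A.1 z⟫ := hsym
    have h10 : ⟪A.1 y, z⟫ = ⟪y, z⟫ + q * ⟪A.1 v' - B.1 v', z⟫ := by
      rw [e1, inner_add_left, real_inner_smul_left]
    have h11 : ⟪y, A.1 z⟫ = -⟪y, z⟫ + ⟪y, A.1 z - D.1 z⟫ := by
      conv_lhs => rw [e2]
      rw [inner_add_right, inner_neg_right]
    linarith
  have b1 : |⟪y, A.1 z - D.1 z⟫| ≤ μ := by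
    calc |⟪y, A.1 z - D.1 z⟫| ≤ ‖y‖ * ‖A.1 z - D.1 z‖ := abs_real_inner_le_norm _ _
      _ ≤ μ := by rw [ny, one_mul]; exact hA2
  have b2 : |⟪A.1 v' - B.1 v', z⟫| ≤ μ := by
    calc |⟪A.1 v' - B.1 v', z⟫| ≤ ‖A.1 v' - B.1 v'‖ * ‖z‖ := abs_real_inner_le_norm _ _
      _ ≤ μ := by rw [nz, mul_one]; exact hA1
  have hμ0 : 0 ≤ μ := le_trans (abs_nonneg _) b1
  have b3 : 2 * |⟪y, z⟫| ≤ μ + 2 / η * μ := by
    have : |2 * ⟪y, z⟫| ≤ μ + 2 / η * μ := by
      rw [e3]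
      calc |⟪y, A.1 z - D.1 z⟫ - q * ⟪A.1 v' - B.1 v', z⟫|
          ≤ |⟪y, A.1 z - D.1 z⟫| + |q * ⟪A.1 v' - B.1 v', z⟫| := abs_sub _ _
        _ ≤ μ + 2 / η * μ := by
            rw [abs_mul]
            exact add_le_add b1 (mul_le_mul hq2 b2 (abs_nonneg _) (by positivity))
    rw [abs_mul, abs_of_pos (by norm_num : (0 : ℝ) < 2)] at this
    exact this
  have b4 : μ + 2 / η * μ = C.ε := by
    rw [hμdef]
    field_simp
  rw [b4] at b3
  have := C.ε_pos
  linarith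

/-- M4(2): closeness of the top vectors, with the three colour fact as a hypothesis -/
theorem Lab.close_of_three {n N : ℕ} {C : Col n N} (L : Lab C)
    (three : ∀ (U : Submodule ℝ (E n)), 2 ≤ finrank ℝ U → ∀ a b : Fin N,
      ∃ i ∈ C.cs U, i ≠ a ∧ i ≠ b) (η : ℝ) (hη : 0 < η) :
    ∃ μ > 0, ∀ (l : List (S n)) (a b : Fin N), (∀ A ∈ l, ‖A‖ = 1) →
      (∀ A ∈ l, ∀ B ∈ l, ‖A - B‖ < μ) →
      (∀ j, j ≠ a → j ≠ b → (false, j) ∈ l.map L.lb) →
      ∀ A ∈ l, ∀ B ∈ l, L.sg A = true → L.sg B = true →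
        (C.c (L.v A) = a ∨ C.c (L.v A) = b) → (C.c (L.v B) = a ∨ C.c (L.v B) = b) →
        (‖L.v A - L.v B‖ < η ∨ ‖L.v A + L.v B‖ < η) ∧
        (C.c (L.v A) = C.c (L.v B) → ‖L.v A - L.v B‖ < η) := by
  have hε := C.ε_pos
  set η' := min η (2 * C.ε) with hη'
  have hη'0 : 0 < η' := lt_min hη (by linarith)
  refine ⟨C.ε * η' / (η' + 2), by positivity, ?_⟩
  intro l a b hl hμ hj A hA B hB hsA hsB _ _
  have ne0 : ∀ D ∈ l, D ≠ 0 := by
    intro D hD h0
    have := hl D hD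
    rw [h0] at this
    simp at this
  have h := L.close_aux three η' hη'0 l a b hl hμ hj A hA B hB hsA hsB
  have hle : η' ≤ η := min_le_left _ _
  refine ⟨?_, ?_⟩
  · rcases h with h | h
    · exact Or.inl (h.trans_le hle)
    · exact Or.inr (h.trans_le hle)
  · intro hc
    rcases h with h | h
    · exact h.trans_le hle
    · exfalso
      have nA := L.unit A (ne0 A hA)
      have nB := L.unit B (ne0 B hB)
      have nw := L.w_unit A (ne0 A hA)
      have cw := L.w_col A (ne0 A hA)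
      have pA := L.w_pos A (ne0 A hA)
      have pB := L.w_pos B (ne0 B hB)
      rw [← hc] at pB
      have sA := C.sep _ _ nA nw cw.symm
      have sB := C.sep _ _ nB nw (by rw [cw, hc])
      rw [abs_of_pos pA] at sA
      rw [abs_of_pos pB] at sB
      have h1 : ⟪L.v A + L.v B, L.w (C.c (L.v A))⟫ ≤ ‖L.v A + L.v B‖ := by
        calc ⟪L.v A + L.v B, L.w (C.c (L.v A))⟫
            ≤ ‖L.v A + L.v B‖ * ‖L.w (C.c (L.v A))‖ := real_inner_le_norm _ _
          _ = ‖L.v A + L.v B‖ := by rw [nw, mul_one]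
      rw [inner_add_left] at h1
      have h2 : η' ≤ 2 * C.ε := min_le_right _ _
      linarith

end P052D
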