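import Vale.Agent.P052.R2.H243.Hemi

/-!
# Fan's lemma for chains of tuples
-/

namespace Vale.Agent.P052.R2.H243

open List

section sym
variable {X : Type*} [DecidableEq X]

/-- a cochain is alternating if it is invariant under permutation and vanishes on tuples with a
repetition -/
structure Alt (φ : List X → ZMod 2) : Prop where
  perm : ∀ l m : List X, l.Perm m → φ l = φ m
  dup : ∀ l : List X, ¬ l.Nodup → φ l = 0

theorem Alt.cons {φ : List X → ZMod 2} (h : Alt φ) (x : X) : Alt (fun m => φ (x :: m)) where
  perm := fun l m hlm => h.perm _ _ (hlm.cons x)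
  dup := fun l hl => h.dup _ (fun hn => hl (List.nodup_cons.1 hn).2)

theorem dl_zero_of_forall {φ : List X → ZMod 2} {l : List X}
    (h : ∀ m ∈ bd l, φ m = 0) : dl φ l = 0 := by
  unfold dl
  rw [ev_congr (ψ := fun _ => 0) h, ev_zero]

theorem Alt.dl_cons_mem {φ : List X → ZMod 2} (h : Alt φ) {x : X} {l : List X} (hx : x ∈ l) :
    dl (fun m => φ (x :: m)) l = φ l := by
  induction l generalizing φ with
  | nil => simp at hx
  | cons y l ih =>
    rw [dl_cons]
    by_cases hxy : y = x
    · subst hxy
      have : dl (fun m => φ (y :: y :: m)) l = 0 := by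
        apply dl_zero_of_forall
        intro m _
        exact h.dup _ (by simp)
      rw [this, add_zero]
    · have hxl : x ∈ l := by
        rcases List.mem_cons.1 hx with h1 | h1
        · exact absurd h1.symm hxy
        · exact h1
      rw [h.dup (x :: l) (by simp [hxl]), zero_add]
      have h1 : (fun m => φ (x :: y :: m)) = (fun m => (fun m' => φ (y :: m')) (x :: m)) := by
        funext m
        exact h.perm _ _ (List.Perm.swap _ _ _)
      rw [h1]
      exact ih (h.cons y) hxl

theorem Alt.dl_eq_zero {φ : List X → ZMod 2} (h : Alt φ) {l : List X} (hl : ¬ l.Nodup) :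
    dl φ l = 0 := by
  induction l generalizing φ with
  | nil => simp
  | cons x l ih =>
    rw [dl_cons]
    by_cases hx : x ∈ l
    · rw [h.dl_cons_mem hx, add_self2]
    · have hl' : ¬ l.Nodup := fun hn => hl (List.nodup_cons.2 ⟨hx, hn⟩)
      rw [h.dup l hl', ih (h.cons x) hl', add_zero]

theorem dl_nodup (Φ : Finset X → ZMod 2) {l : List X} (hl : l.Nodup) :
    dl (fun m => Φ m.toFinset) l = ∑ p ∈ l.toFinset, Φ (l.toFinset.erase p) := by
  induction l generalizing Φ with
  | nil => simp
  | cons x l ih =>
    rw [List.nodup_cons] at hl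
    rw [dl_cons]
    have h1 : (fun m : List X => Φ (x :: m).toFinset)
        = (fun m : List X => (fun S : Finset X => Φ (insert x S)) m.toFinset) := by
      funext m; simp
    rw [h1, ih (fun S => Φ (insert x S)) hl.2]
    have hx : x ∉ l.toFinset := by simpa using hl.1
    rw [List.toFinset_cons, Finset.sum_insert hx, Finset.erase_insert hx]
    congr 1
    apply Finset.sum_congr rfl
    intro p hp
    have : p ≠ x := fun h => hx (h ▸ hp)
    rw [Finset.erase_insert_of_ne this.symm]

end sym

section fan
variable {ι : Type*} [LinearOrder ι]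

/-- colours strictly below -/
def rk (S : Finset (ι × Bool)) (p : ι × Bool) : ℕ := (S.filter (fun q => q.1 < p.1)).card

/-- alternating sets of signed colours, beginning with sign `b` -/
def AltSet (b : Bool) (S : Finset (ι × Bool)) : Prop :=
  ∀ p ∈ S, p.2 = (if Even (rk S p) then b else !b)

instance (b : Bool) (S : Finset (ι × Bool)) : Decidable (AltSet b S) := by
  unfold AltSet; infer_instance

/-- no complementary pair -/
def NC (S : Finset (ι × Bool)) : Prop := ∀ p ∈ S, (p.1, !p.2) ∉ S

theorem NC.inj {S : Finset (ι × Bool)} (h : NC S) {p q : ι × Bool} (hp : p ∈ S) (hq : q ∈ S)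
    (hpq : p.1 = q.1) : p = q := by
  rcases p with ⟨a, b⟩
  rcases q with ⟨c, d⟩
  simp only at hpq
  subst hpq
  have := h _ hp
  simp only at this
  by_cases hbd : b = d
  · rw [hbd]
  · have : d = !b := by cases b <;> cases d <;> simp_all
    exact absurd (this ▸ hq) (h _ hp)

theorem NC.mono {S T : Finset (ι × Bool)} (h : NC S) (hTS : T ⊆ S) : NC T :=
  fun p hp hq => h p (hTS hp) (hTS hq)

/-- indicator of alternation -/
def ia (b : Bool) (S : Finset (ι × Bool)) : ZMod 2 := if AltSet b S then 1 else 0

theorem altSet_insert {b : Bool} {S : Finset (ι × Bool)} {p : ι × Bool}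
    (hp : ∀ q ∈ S, q.1 < p.1) :
    AltSet b (insert p S) ↔ AltSet b S ∧ p.2 = (if Even S.card then b else !b) := by
  have h1 : rk (insert p S) p = S.card := by
    unfold rk
    congr 1
    ext q
    rw [Finset.mem_filter, Finset.mem_insert]
    constructor
    · rintro ⟨rfl | h, h2⟩
      · exact absurd h2 (lt_irrefl _)
      · exact h
    · intro h; exact ⟨Or.inr h, hp q h⟩
  have h2 : ∀ q ∈ S, rk (insert p S) q = rk S q := by
    intro q hq
    unfold rk
    congr 1
    ext r
    rw [Finset.mem_filter, Finset.mem_insert, Finset.mem_filter]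
    constructor
    · rintro ⟨rfl | h, h2⟩
      · exact absurd (h2.trans (hp q hq)) (lt_irrefl _)
      · exact ⟨h, h2⟩
    · rintro ⟨h, h2⟩; exact ⟨Or.inr h, h2⟩
  unfold AltSet
  constructor
  · intro h
    refine ⟨?_, ?_⟩
    · intro q hq
      rw [← h2 q hq]
      exact h q (Finset.mem_insert_of_mem hq)
    · rw [← h1]
      exact h p (Finset.mem_insert_self _ _)
  · rintro ⟨h3, h4⟩ q hq
    rw [Finset.mem_insert] at hq
    rcases hq with rfl | hq
    · rw [h1]; exact h4
    · rw [h2 q hq]; exact h3 q hq

theorem ia_insert {b : Bool} {S : Finset (ι × Bool)} {p : ι × Bool}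
    (hp : ∀ q ∈ S, q.1 < p.1) :
    ia b (insert p S) = if p.2 = (if Even S.card then b else !b) then ia b S else 0 := by
  unfold ia
  by_cases h1 : AltSet b S
  · by_cases h2 : p.2 = (if Even S.card then b else !b)
    · rw [if_pos h2, if_pos h1, if_pos ((altSet_insert hp).2 ⟨h1, h2⟩)]
    · rw [if_neg h2, if_neg (fun h => h2 ((altSet_insert hp).1 h).2)]
  · rw [if_neg h1, if_neg (fun h => h1 ((altSet_insert hp).1 h).1), ite_self]

/-- Fan's local identity -/
theorem fan_local (S : Finset (ι × Bool)) (hS : NC S) :
    ∑ p ∈ S, ia true (S.erase p) = ia true S + ia false S := by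
  classical
  induction S using Finset.induction_on_max_value (fun p : ι × Bool => p.1) with
  | empty => simp [ia, AltSet]; decide
  | insert p S hpS hmax ih =>
    have hlt : ∀ q ∈ S, q.1 < p.1 := by
      intro q hq
      rcases (hmax q hq).lt_or_eq with h | h
      · exact h
      · exfalso
        have := hS.inj (Finset.mem_insert_of_mem hq) (Finset.mem_insert_self p S) h
        exact hpS (this ▸ hq)
    have ihS := ih (hS.mono (Finset.subset_insert _ _))
    rw [Finset.sum_insert hpS, Finset.erase_insert hpS]
    have h1 : ∀ q ∈ S, ia true ((insert p S).erase q)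
        = if p.2 = (if Even S.card then false else true) then ia true (S.erase q) else 0 := by
      intro q hq
      have hpq : p ≠ q := fun h => hpS (h ▸ hq)
      rw [Finset.erase_insert_of_ne hpq]
      have h2 : ∀ r ∈ S.erase q, r.1 < p.1 := fun r hr => hlt r (Finset.mem_of_mem_erase hr)
      have h3 : (if Even (S.erase q).card then true else !true)
          = (if Even S.card then false else true) := by
        rw [Finset.card_erase_of_mem hq]
        have hpos : 0 < S.card := Finset.card_pos.2 ⟨q, hq⟩
        by_cases he : Even S.card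
        · have : ¬ Even (S.card - 1) := by
            rw [Nat.not_even_iff_odd]
            exact Nat.Even.sub_odd hpos he odd_one
          simp [he, this]
        · have : Even (S.card - 1) := by
            rw [Nat.not_even_iff_odd] at he
            exact Nat.Odd.sub_odd he odd_one
          simp [he, this]
      rw [ia_insert h2, h3]
    rw [Finset.sum_congr rfl h1, ia_insert hlt, ia_insert hlt]
    by_cases he : Even S.card
    · simp only [he, if_true]
      cases hp2 : p.2
      · simp only [if_true, Bool.false_eq_true, if_false, ihS]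
        rw [← add_assoc, add_self2]
      · simp
    · simp only [he, if_false]
      cases hp2 : p.2
      · simp
      · simp only [if_true, Bool.not_true, Bool.not_false, Bool.true_eq_false, if_false, ihS]
        rw [← add_assoc, add_self2]

/-- alternation cochain on tuples of labels -/
def ac (b : Bool) (L : List (ι × Bool)) : ZMod 2 := if L.Nodup then ia b L.toFinset else 0

theorem ac_alt (b : Bool) : Alt (ac (ι := ι) b) where
  perm := fun l m h => by
    unfold ac
    simp only [h.nodup_iff, List.toFinset_eq_of_perm _ _ h]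
  dup := fun l hl => by simp [ac, hl]

/-- Fan's identity for one tuple of labels without complementary pair -/
theorem fan_tuple {L : List (ι × Bool)} (hL : ∀ p ∈ L, (p.1, !p.2) ∉ L) :
    dl (ac true) L = ac true L + ac false L := by
  by_cases hn : L.Nodup
  · have h1 : dl (ac true) L = dl (fun m => ia true m.toFinset) L := by
      apply dl_congr
      intro m hm
      unfold ac
      rw [if_pos (hn.sublist hm)]
    rw [h1, dl_nodup _ hn, fan_local]
    · simp [ac, hn]
    · intro p hp hq
      rw [List.mem_toFinset] at hp hq
      exact hL p hp hq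
  · rw [(ac_alt true).dl_eq_zero hn]
    simp [ac, hn]

/-- flipping the sign -/
def flp (p : ι × Bool) : ι × Bool := (p.1, !p.2)

theorem rk_flp (S : Finset (ι × Bool)) (p : ι × Bool) :
    rk (S.image flp) (flp p) = rk S p := by
  classical
  unfold rk flp
  rw [Finset.filter_image, Finset.card_image_of_injective]
  rintro ⟨a, b⟩ ⟨c, d⟩ h
  simpa using h

theorem altSet_flp (b : Bool) (S : Finset (ι × Bool)) :
    AltSet b (S.image flp) ↔ AltSet (!b) S := by
  unfold AltSet
  constructor
  · intro h p hp
    have h1 := h (flp p) (Finset.mem_image_of_mem _ hp)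
    rw [rk_flp] at h1
    have h2 : (flp p).2 = !p.2 := rfl
    rw [h2] at h1
    rw [← Bool.not_not (b := p.2), h1]
    split_ifs <;> rfl
  · intro h p hp
    rw [Finset.mem_image] at hp
    obtain ⟨q, hq, rfl⟩ := hp
    have h1 := h q hq
    rw [rk_flp]
    have h2 : (flp q).2 = !q.2 := rfl
    rw [h2, h1]
    split_ifs <;> simp

theorem ac_flp (b : Bool) (L : List (ι × Bool)) : ac b (L.map flp) = ac (!b) L := by
  unfold ac
  have h1 : (L.map flp).Nodup ↔ L.Nodup := by
    apply List.nodup_map_iff
    rintro ⟨a, b⟩ ⟨c, d⟩ h
    simpa [flp] using h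
  have h2 : (L.map flp).toFinset = L.toFinset.image flp := by
    ext p; simp
  simp only [h1, h2, ia, altSet_flp]

/-- a labelling is antipodal and has no complementary edges on a chain -/
structure GoodLabel {N : ℕ} (lab : (Fin N → ℝ) → ι × Bool) (M n : ℕ) : Prop where
  odd : ∀ k ≤ n, ∀ l ∈ hemi N M k, ∀ x ∈ l, lab (-x) = flp (lab x)
  nc : ∀ k ≤ n, ∀ l ∈ hemi N M k, ∀ x ∈ l, ∀ y ∈ l, lab y ≠ flp (lab x)

/-- Fan's lemma for the fine hemisphere chains: the number of positively alternating tuples of
`hemi k + (-1)·hemi k` is odd. -/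
theorem fan {N M n : ℕ} (hM : 0 < M) {lab : (Fin N → ℝ) → ι × Bool}
    (h : GoodLabel lab M n) {k : ℕ} (hk : k ≤ n) :
    ev (fun l => ac true (l.map lab)) (hemi N M k ++ neg2 (hemi N M k)) = 1 := by
  have key : ∀ k ≤ n, ∀ b, ev (fun l => ac b (l.map lab)) (neg2 (hemi N M k))
      = ev (fun l => ac (!b) (l.map lab)) (hemi N M k) := by
    intro k hk b
    rw [ev_neg2]
    apply ev_congr
    intro l hl
    rw [← ac_flp, List.map_map, List.map_map]
    congr 1
    apply List.map_congr_left
    intro x hx
    exact h.odd k hk l hl x hx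
  induction k with
  | zero =>
    rw [ev_append, key 0 hk]
    simp only [hemi, ev_cons, ev_nil, add_zero, List.map_cons, List.map_nil]
    unfold ac ia AltSet rk
    simp only [List.nodup_cons, List.not_mem_nil, not_false_eq_true, List.nodup_nil, and_self,
      if_true, List.toFinset_cons, List.toFinset_nil, insert_empty_eq, Finset.mem_singleton,
      forall_eq, Finset.filter_singleton, lt_irrefl, if_false, Finset.card_empty,
      Even.zero, Bool.not_true]
    cases (lab (ue N 0)).2 <;> simp
  | succ k ih =>
    have ih' := ih (by omega)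
    rw [ev_append, key (k + 1) hk, ← ev_add]
    have h1 : ev (fun l => ac true (l.map lab) + ac (!true) (l.map lab)) (hemi N M (k + 1))
        = ev (dl (fun l => ac true (l.map lab))) (hemi N M (k + 1)) := by
      apply ev_congr
      intro l hl
      rw [← dl_map (ac true) lab l, fan_tuple]
      · rfl
      · intro p hp hq
        rw [List.mem_map] at hp hq
        obtain ⟨x, hx, rfl⟩ := hp
        obtain ⟨y, hy, hxy⟩ := hq
        exact h.nc (k + 1) hk l hl x hx y hy hxy
    rw [h1, bd_hemi hM, ← ev_append]
    exact ih'

end fan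

end Vale.Agent.P052.R2.H243
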