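import Vale.Agent.P052.R2.H243.Chain

/-!
# Fine antipodal hemisphere chains of the cross-polytope sphere

`hemi N M k` is a chain of `(k+1)`-tuples of points `x` of `Fin N → ℝ` with `∑ |x i| = 1`, of mesh
at most `2k/M`, with `∂ (hemi (k+1)) = hemi k + (-1)·hemi k`.
-/

namespace Vale.Agent.P052.R2.H243

open List

/-- the `k`-th unit vector -/
def ue (N k : ℕ) : Fin N → ℝ := fun i => if (i : ℕ) = k then 1 else 0

/-- the homotopy from the identity to the pole `ue N k` in `M` steps -/
noncomputable def hg (N M k s : ℕ) (x : Fin N → ℝ) : Fin N → ℝ :=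
  fun i => (1 - (s : ℝ) / M) * x i + (s : ℝ) / M * ue N k i

/-- the antipode of a chain -/
def neg2 {E : Type*} [Neg E] (c : List (List E)) : List (List E) := c.map (List.map (fun x => -x))

/-- hemisphere chains -/
noncomputable def hemi (N M : ℕ) : ℕ → List (List (Fin N → ℝ))
  | 0 => [[ue N 0]]
  | k + 1 => sweep (hg N M (k + 1)) M (hemi N M k ++ neg2 (hemi N M k))

theorem ev_neg2 {E : Type*} [Neg E] (φ : List E → ZMod 2) (c : List (List E)) :
    ev φ (neg2 c) = ev (fun l => φ (l.map (fun x => -x))) c := ev_map _ _ _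

theorem mem_neg2 {E : Type*} [Neg E] {c : List (List E)} {m : List E} :
    m ∈ neg2 c ↔ ∃ l ∈ c, l.map (fun x => -x) = m := by
  simp [neg2]

theorem length_of_mem_hemi {N M k : ℕ} {l : List (Fin N → ℝ)} (h : l ∈ hemi N M k) :
    l.length = k + 1 := by
  induction k generalizing l with
  | zero => simp only [hemi, List.mem_singleton] at h; subst h; simp
  | succ k ih =>
    rw [hemi, mem_sweep] at h
    obtain ⟨s, _, l', hl', hm⟩ := h
    rw [length_of_mem_pr _ _ hm]
    rw [List.mem_append, mem_neg2] at hl'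
    rcases hl' with h1 | ⟨l'', h1, rfl⟩
    · rw [ih h1]
    · rw [List.length_map, ih h1]

theorem length_of_mem_hemi2 {N M k : ℕ} {l : List (Fin N → ℝ)}
    (h : l ∈ hemi N M k ++ neg2 (hemi N M k)) : l.length = k + 1 := by
  rw [List.mem_append, mem_neg2] at h
  rcases h with h1 | ⟨l'', h1, rfl⟩
  · exact length_of_mem_hemi h1
  · rw [List.length_map, length_of_mem_hemi h1]

theorem hg_zero (N M k : ℕ) : hg N M k 0 = id := by
  funext x i
  simp [hg]

theorem hg_last {N M k : ℕ} (hM : 0 < M) : hg N M k M = fun _ => ue N k := by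
  have : (M : ℝ) ≠ 0 := by positivity
  funext x i
  simp [hg, div_self this]

theorem cycle_boundary {N M k : ℕ} (hM : 0 < M)
    (hc : IsCycle (hemi N M k ++ neg2 (hemi N M k))) (φ : List (Fin N → ℝ) → ZMod 2) :
    ev (dl φ) (hemi N M (k + 1)) = ev φ (hemi N M k) + ev φ (neg2 (hemi N M k)) := by
  rw [hemi, bd_sweep hc, hg_zero, hg_last hM]
  simp only [List.map_id, List.map_const']
  have h1 : ev (fun l => φ (List.replicate l.length (ue N (k + 1))))
      (hemi N M k ++ neg2 (hemi N M k)) = 0 := by
    rw [ev_congr (ψ := fun _ => φ (List.replicate (k + 1) (ue N (k + 1))))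
      (fun l hl => by rw [length_of_mem_hemi2 hl])]
    rw [ev_append, ev_neg2, add_self2]
  rw [h1, zero_add, ev_append]

theorem isCycle_hemi2 {N M : ℕ} (hM : 0 < M) (k : ℕ) :
    IsCycle (hemi N M k ++ neg2 (hemi N M k)) := by
  induction k with
  | zero =>
    intro φ
    simp only [hemi, neg2, List.map_cons, List.map_nil, List.cons_append, List.nil_append,
      ev_cons, dl_cons, ev_nil, add_zero, dl_nil]
    exact add_self2 _
  | succ k ih =>
    intro φ
    rw [ev_append, ev_neg2]
    have h1 : ev (fun l => dl φ (l.map (fun x => -x))) (hemi N M (k + 1))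
        = ev (dl (fun m => φ (m.map (fun x => -x)))) (hemi N M (k + 1)) := by
      apply ev_congr
      intro l _
      exact dl_map _ _ _
    rw [h1, cycle_boundary hM ih, cycle_boundary hM ih, ev_neg2, ev_neg2]
    have h2 : ev (fun l => φ ((l.map (fun x => -x)).map (fun x => -x))) (hemi N M k)
        = ev φ (hemi N M k) := by
      apply ev_congr
      intro l _
      simp
    rw [h2]
    have : ∀ a b : ZMod 2, a + b + (b + a) = 0 := by
      intro a b
      have : a + b + (b + a) = (a + a) + (b + b) := by ring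
      rw [this, add_self2, add_self2, add_zero]
    exact this _ _

/-- boundary relation of the hemisphere chains -/
theorem bd_hemi {N M : ℕ} (hM : 0 < M) (k : ℕ) (φ : List (Fin N → ℝ) → ZMod 2) :
    ev (dl φ) (hemi N M (k + 1)) = ev φ (hemi N M k) + ev φ (neg2 (hemi N M k)) :=
  cycle_boundary hM (isCycle_hemi2 hM k) φ

theorem sum_abs_ue {N k : ℕ} (hk : k < N) : ∑ i, |ue N k i| = 1 := by
  unfold ue
  rw [Finset.sum_eq_single ⟨k, hk⟩]
  · simp
  · intro b _ hb
    have : (b : ℕ) ≠ k := fun h => hb (Fin.ext h)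
    simp [this]
  · intro h; exact absurd (Finset.mem_univ _) h

/-- the points of the hemisphere chains -/
theorem point_hemi {N M k : ℕ} (hk : k < N) {l : List (Fin N → ℝ)}
    (h : l ∈ hemi N M k) {x : Fin N → ℝ} (hx : x ∈ l) :
    ∑ i, |x i| = 1 ∧ ∀ i : Fin N, k < i → x i = 0 := by
  induction k generalizing l x with
  | zero =>
    simp only [hemi, List.mem_singleton] at h
    subst h
    simp only [List.mem_singleton] at hx
    subst hx
    refine ⟨sum_abs_ue hk, ?_⟩
    intro i hi
    have : (i : ℕ) ≠ 0 := by omega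
    simp [ue, this]
  | succ k ih =>
    rw [hemi, mem_sweep] at h
    obtain ⟨s, hs, l', hl', hm⟩ := h
    have hM : 0 < M := by omega
    have hMr : (0 : ℝ) < M := by exact_mod_cast hM
    have key : ∀ y ∈ l', ∑ i, |y i| = 1 ∧ ∀ i : Fin N, k < i → y i = 0 := by
      rw [List.mem_append, mem_neg2] at hl'
      rcases hl' with h1 | ⟨l'', h1, rfl⟩
      · intro y hy
        exact ih (by omega) h1 hy
      · intro y hy
        rw [List.mem_map] at hy
        obtain ⟨z, hz, rfl⟩ := hy
        have := ih (by omega) h1 hz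
        refine ⟨by simpa using this.1, ?_⟩
        intro i hi
        simp [this.2 i hi]
    have key2 : ∀ t : ℕ, t ≤ M → ∀ y ∈ l', ∑ i, |hg N M (k + 1) t y i| = 1 ∧
        ∀ i : Fin N, k + 1 < i → hg N M (k + 1) t y i = 0 := by
      intro t ht y hy
      obtain ⟨h1, h2⟩ := key y hy
      have ht0 : 0 ≤ (t : ℝ) / M := by positivity
      have ht1 : (t : ℝ) / M ≤ 1 := by
        rw [div_le_one hMr]; exact_mod_cast ht
      constructor
      · have h3 : ∀ i, |hg N M (k + 1) t y i|
            = (1 - (t : ℝ) / M) * |y i| + (t : ℝ) / M * |ue N (k + 1) i| := by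
          intro i
          unfold hg ue
          by_cases hi : (i : ℕ) = k + 1
          · have h0 : y i = 0 := h2 i (by omega)
            simp [hi, h0, abs_of_nonneg ht0]
          · simp only [hi, if_false, mul_zero, add_zero, abs_zero]
            rw [abs_mul, abs_of_nonneg (by linarith : 0 ≤ 1 - (t : ℝ) / M)]
        rw [Finset.sum_congr rfl (fun i _ => h3 i), Finset.sum_add_distrib, ← Finset.mul_sum,
          ← Finset.mul_sum, h1, sum_abs_ue hk]
        ring
      · intro i hi
        have h0 : y i = 0 := h2 i (by omega)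
        have : (i : ℕ) ≠ k + 1 := by omega
        simp [hg, ue, h0, this]
    obtain ⟨y, hy, hxy⟩ := mem_of_mem_pr _ _ hm hx
    rcases hxy with rfl | rfl
    · exact key2 s (by omega) y hy
    · exact key2 (s + 1) (by omega) y hy

theorem abs_le_one_of_sum {N : ℕ} {x : Fin N → ℝ} (h : ∑ i, |x i| = 1) (i : Fin N) :
    |x i| ≤ 1 := by
  rw [← h]
  exact Finset.single_le_sum (f := fun i => |x i|) (fun j _ => abs_nonneg _) (Finset.mem_univ i)

/-- mesh of the hemisphere chains -/
theorem mesh_hemi {N M k : ℕ} (hM : 0 < M) (hk : k < N) {l : List (Fin N → ℝ)}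
    (h : l ∈ hemi N M k) {x y : Fin N → ℝ} (hx : x ∈ l) (hy : y ∈ l) (i : Fin N) :
    |x i - y i| ≤ 2 * k / M := by
  have hMr : (0 : ℝ) < M := by exact_mod_cast hM
  induction k generalizing l x y with
  | zero =>
    simp only [hemi, List.mem_singleton] at h
    subst h
    simp only [List.mem_singleton] at hx hy
    subst hx; subst hy
    simp
  | succ k ih =>
    rw [hemi, mem_sweep] at h
    obtain ⟨s, hs, l', hl', hm⟩ := h
    have key : ∀ y ∈ l', ∑ i, |y i| = 1 := by
      rw [List.mem_append, mem_neg2] at hl'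
      rcases hl' with h1 | ⟨l'', h1, rfl⟩
      · intro y hy
        exact (point_hemi (by omega) h1 hy).1
      · intro y hy
        rw [List.mem_map] at hy
        obtain ⟨z, hz, rfl⟩ := hy
        simpa using (point_hemi (by omega) h1 hz).1
    have key1 : ∀ y ∈ l', ∀ z ∈ l', |y i - z i| ≤ 2 * k / M := by
      rw [List.mem_append, mem_neg2] at hl'
      rcases hl' with h1 | ⟨l'', h1, rfl⟩
      · intro y hy z hz
        exact ih (by omega) h1 hy hz
      · intro y hy z hz
        rw [List.mem_map] at hy hz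
        obtain ⟨y', hy', rfl⟩ := hy
        obtain ⟨z', hz', rfl⟩ := hz
        have := ih (by omega) h1 hy' hz'
        simp only [Pi.neg_apply]
        rw [show -y' i - -z' i = -(y' i - z' i) by ring, abs_neg]
        exact this
    have hs1 : (s : ℝ) / M ≤ 1 := by
      rw [div_le_one hMr]; exact_mod_cast (by omega : s ≤ M)
    have hs1' : ((s : ℝ) + 1) / M ≤ 1 := by
      rw [div_le_one hMr]; exact_mod_cast (by omega : s + 1 ≤ M)
    have hs0 : 0 ≤ (s : ℝ) / M := by positivity
    have hu : |ue N (k + 1) i| ≤ 1 := by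
      unfold ue; split_ifs <;> simp
    -- same time
    have e0 : ∀ t : ℝ, 0 ≤ t → t ≤ 1 → ∀ y z : Fin N → ℝ, |y i - z i| ≤ 2 * k / M →
        |((1 - t) * y i + t * ue N (k + 1) i) - ((1 - t) * z i + t * ue N (k + 1) i)|
          ≤ 2 * k / M := by
      intro t h0 h1 y z hyz
      rw [show ((1 - t) * y i + t * ue N (k + 1) i) - ((1 - t) * z i + t * ue N (k + 1) i)
        = (1 - t) * (y i - z i) by ring, abs_mul, abs_of_nonneg (by linarith : 0 ≤ 1 - t)]
      have := abs_nonneg (y i - z i)
      nlinarith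
    have e1 : ∀ z ∈ l', |hg N M (k + 1) (s + 1) z i - hg N M (k + 1) s z i| ≤ 2 / M := by
      intro z hz
      have hz1 := abs_le_one_of_sum (key z hz) i
      unfold hg
      push_cast
      rw [show (1 - ((s : ℝ) + 1) / M) * z i + ((s : ℝ) + 1) / M * ue N (k + 1) i
        - ((1 - (s : ℝ) / M) * z i + (s : ℝ) / M * ue N (k + 1) i)
        = (1 / M) * (ue N (k + 1) i - z i) by ring]
      rw [abs_mul, abs_of_nonneg (by positivity : (0 : ℝ) ≤ 1 / M)]
      have h3 : |ue N (k + 1) i - z i| ≤ 2 := by
        calc |ue N (k + 1) i - z i| ≤ |ue N (k + 1) i| + |z i| := abs_sub _ _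
          _ ≤ 2 := by linarith
      calc 1 / (M : ℝ) * |ue N (k + 1) i - z i| ≤ 1 / M * 2 := by
            apply mul_le_mul_of_nonneg_left h3; positivity
        _ = 2 / M := by ring
    have e2 : ∀ t : ℕ, t ≤ M → ∀ y ∈ l', ∀ z ∈ l',
        |hg N M (k + 1) t y i - hg N M (k + 1) t z i| ≤ 2 * k / M := by
      intro t ht y hy z hz
      unfold hg
      apply e0 _ (by positivity) _ y z (key1 y hy z hz)
      rw [div_le_one hMr]; exact_mod_cast ht
    have hfin : 2 * ((k + 1 : ℕ) : ℝ) / M = 2 * k / M + 2 / M := by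
      push_cast; ring
    rw [hfin]
    have hM2 : 0 ≤ 2 / (M : ℝ) := by positivity
    obtain ⟨x', hx', hxx⟩ := mem_of_mem_pr _ _ hm hx
    obtain ⟨y', hy', hyy⟩ := mem_of_mem_pr _ _ hm hy
    rcases hxx with rfl | rfl <;> rcases hyy with rfl | rfl
    · have := e2 s (by omega) x' hx' y' hy'
      linarith
    · have h1 := e2 s (by omega) x' hx' y' hy'
      have h2 := e1 y' hy'
      rw [abs_sub_comm] at h2
      calc |hg N M (k + 1) s x' i - hg N M (k + 1) (s + 1) y' i|
          ≤ |hg N M (k + 1) s x' i - hg N M (k + 1) s y' i|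
            + |hg N M (k + 1) s y' i - hg N M (k + 1) (s + 1) y' i| := abs_sub_le _ _ _
        _ ≤ _ := by linarith
    · have h1 := e2 s (by omega) x' hx' y' hy'
      have h2 := e1 x' hx'
      calc |hg N M (k + 1) (s + 1) x' i - hg N M (k + 1) s y' i|
          ≤ |hg N M (k + 1) (s + 1) x' i - hg N M (k + 1) s x' i|
            + |hg N M (k + 1) s x' i - hg N M (k + 1) s y' i| := abs_sub_le _ _ _
        _ ≤ _ := by linarith
    · have := e2 (s + 1) (by omega) x' hx' y' hy'
      linarith

end Vale.Agent.P052.R2.H243
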